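import Vale.Agent.P219.CH.Full.Statements
import Vale.Agent.P219.CH.Full.Tools

/-!
P219, the concentration step: steps, the weight, the exponents and the infimum.
-/

namespace Vale.Agent.P219.CH.Full.Concentration

open MeasureTheory Filter Topology Set
open scoped ContDiff

noncomputable section

variable {n : ℕ} {G : Coeff n}

/-- The smooth step from `0` at `a` to `1` at `b`. -/
def up (a b x : ℝ) : ℝ := Real.smoothTransition ((x - a) / (b - a))

theorem up_eq_zero {a b x : ℝ} (hab : a < b) (h : x ≤ a) : up a b x = 0 :=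
  Real.smoothTransition.zero_of_nonpos (div_nonpos_of_nonpos_of_nonneg (by linarith) (by linarith))

theorem up_eq_one {a b x : ℝ} (hab : a < b) (h : b ≤ x) : up a b x = 1 :=
  Real.smoothTransition.one_of_one_le ((one_le_div (by linarith)).2 (by linarith))

theorem up_mem (a b x : ℝ) : up a b x ∈ Icc (0 : ℝ) 1 :=
  ⟨Real.smoothTransition.nonneg _, Real.smoothTransition.le_one _⟩

theorem lt_of_up_pos {a b x : ℝ} (hab : a < b) (h : 0 < up a b x) : a < x := by
  by_contra hx
  rw [up_eq_zero hab (not_lt.1 hx)] at h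
  exact lt_irrefl _ h

theorem contDiff_up (a b : ℝ) : ContDiff ℝ 1 (up a b) :=
  Real.smoothTransition.contDiff.comp ((contDiff_id.sub contDiff_const).div_const _)

/-- A bump, one on `[b, c]` and zero off `(a, d)`. -/
def bump (a b c d x : ℝ) : ℝ := up a b x * (1 - up c d x)

theorem contDiff_bump (a b c d : ℝ) : ContDiff ℝ 1 (bump a b c d) :=
  (contDiff_up a b).mul (contDiff_const.sub (contDiff_up c d))

theorem bump_mem (a b c d x : ℝ) : bump a b c d x ∈ Icc (0 : ℝ) 1 := by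
  obtain ⟨h1, h2⟩ := up_mem a b x
  obtain ⟨h3, h4⟩ := up_mem c d x
  exact ⟨mul_nonneg h1 (by linarith), mul_le_one₀ h2 (by linarith) (by linarith)⟩

theorem bump_pos {a b c d x : ℝ} (hab : a < b) (hcd : c < d) (h : 0 < bump a b c d x) :
    a < x ∧ x < d := by
  constructor
  · by_contra hx
    simp [bump, up_eq_zero hab (not_lt.1 hx)] at h
  · by_contra hx
    simp [bump, up_eq_one hcd (not_lt.1 hx)] at h

theorem bump_eq_one {a b c d x : ℝ} (hab : a < b) (hcd : c < d) (h1 : b ≤ x) (h2 : x ≤ c) :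
    bump a b c d x = 1 := by
  simp [bump, up_eq_one hab h1, up_eq_zero hcd h2]

/-- A `C¹` function constant outside an interval has bounded derivative, also after
multiplication by the variable. -/
theorem exists_deriv_bound {φ : ℝ → ℝ} (hφ : ContDiff ℝ 1 φ) {a b : ℝ}
    (hout : ∀ x, x < a ∨ b < x → deriv φ x = 0) :
    ∃ C : ℝ, 0 < C ∧ ∀ x, |deriv φ x| ≤ C ∧ |deriv φ x * x| ≤ C := by
  have hd := hφ.continuous_deriv le_rfl
  obtain ⟨C₁, h₁⟩ := (isCompact_Icc (a := a) (b := b)).exists_bound_of_continuousOn hd.continuousOn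
  obtain ⟨C₂, h₂⟩ := (isCompact_Icc (a := a) (b := b)).exists_bound_of_continuousOn
    (hd.mul continuous_id).continuousOn
  refine ⟨max (max C₁ C₂) 1, lt_max_of_lt_right one_pos, fun x => ?_⟩
  by_cases hx : x ∈ Icc a b
  · exact ⟨(h₁ x hx).trans ((le_max_left _ _).trans (le_max_left _ _)),
      (h₂ x hx).trans ((le_max_right _ _).trans (le_max_left _ _))⟩
  · have h := hout x (by
      rcases lt_or_ge x a with h | h
      · exact Or.inl h
      · exact Or.inr (lt_of_not_ge fun h' => hx ⟨h, h'⟩))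
    simp [h]

theorem deriv_up_out {a b : ℝ} (hab : a < b) {x : ℝ} (hx : x < a ∨ b < x) :
    deriv (up a b) x = 0 := by
  rcases hx with hx | hx
  · have h : up a b =ᶠ[𝓝 x] fun _ => (0 : ℝ) :=
      (eventually_lt_nhds hx).mono fun y hy => up_eq_zero hab hy.le
    rw [h.deriv_eq, deriv_const]
  · have h : up a b =ᶠ[𝓝 x] fun _ => (1 : ℝ) :=
      (eventually_gt_nhds hx).mono fun y hy => up_eq_one hab hy.le
    rw [h.deriv_eq, deriv_const]

theorem deriv_bump_out {a b c d : ℝ} (hab : a < b) (hcd : c < d) {x : ℝ} (hx : x < a ∨ d < x) :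
    deriv (bump a b c d) x = 0 := by
  rcases hx with hx | hx
  · have h : bump a b c d =ᶠ[𝓝 x] fun _ => (0 : ℝ) :=
      (eventually_lt_nhds hx).mono fun y hy => by simp [bump, up_eq_zero hab hy.le]
    rw [h.deriv_eq, deriv_const]
  · have h : bump a b c d =ᶠ[𝓝 x] fun _ => (0 : ℝ) :=
      (eventually_gt_nhds hx).mono fun y hy => by simp [bump, up_eq_one hcd hy.le]
    rw [h.deriv_eq, deriv_const]

/-! ### The weight -/

theorem kk_sq {e a : ℝ} (ha : 0 < a) (hea : e * a < 1) :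
    0 < kk e a ∧ kk e a ^ 2 = a * (2 - e * a) := by
  have h : 0 < a * (2 - e * a) := mul_pos ha (by linarith)
  exact ⟨Real.sqrt_pos.2 h, Real.sq_sqrt h.le⟩

theorem w0_bounds {e a : ℝ} (he : 0 ≤ e) (ha : 0 < a) (hea : e * a < 1) :
    0 < kk e a / a ∧ 1 ≤ a * (kk e a / a) ^ 2 ∧ a * (kk e a / a) ^ 2 ≤ 2 := by
  obtain ⟨hk, hk2⟩ := kk_sq ha hea
  have h : a * (kk e a / a) ^ 2 = 2 - e * a := by
    rw [div_pow, hk2]; field_simp
  refine ⟨by positivity, ?_, ?_⟩ <;> rw [h] <;> nlinarith [mul_nonneg he ha.le]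

variable {Γ : Geo G} {e a : ℝ} {z : E n}

theorem psi_pos (hC : Comp Γ e) (ha : 0 < a) (y : E n) : 0 < psi Γ e z a y :=
  add_pos_of_nonneg_of_pos (hC.phi_nonneg z y) ha

theorem om0_eq (hC : Comp Γ e) (ha : 0 < a) (hea : e * a < 1) (y : E n) :
    om0 Γ e z a y = (1 - e * a) - kk e a * wgt Γ e z a y := by
  have h := (psi_pos (z := z) hC ha y).ne'
  rw [om0, wgt, mul_div_assoc', ← sq, (kk_sq ha hea).2, eq_sub_iff_add_eq, ← add_div,
    div_eq_iff h, psi]
  ring

theorem sph_north (y : E n) : sph Γ e z a (0, 1) y = om0 Γ e z a y := by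
  simp [sph, omg]

theorem sphUnit_north : SphUnit G z (0, 1) := by simp [SphUnit]

/-! ### The infimum -/

variable {μ : Measure (E n × E n)} {h₀ : ℝ}

theorem energy_nonneg (hn : 4 ≤ n) (hG : IsMetric G) (hu : ∀ᵐ p ∂μ, G p.1 p.2 p.2 = 1)
    (hl : 0 ≤ lam n e h₀) (u : E n → ℝ) : 0 ≤ energy μ G e h₀ u := by
  refine integral_nonneg_of_ae ?_
  filter_upwards [hu] with p hp
  exact add_nonneg (mul_nonneg (cc_pos hn).le (tgsq_nonneg hG u hp))
    (mul_nonneg hl (sq_nonneg _))

theorem bddBelow_energy (hn : 4 ≤ n) (hG : IsMetric G) (hu : ∀ᵐ p ∂μ, G p.1 p.2 p.2 = 1)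
    (hl : 0 ≤ lam n e h₀) : BddBelow (energy μ G e h₀ '' {u | Adm μ u}) :=
  ⟨0, by rintro _ ⟨u, -, rfl⟩; exact energy_nonneg hn hG hu hl u⟩

/-- Normalising a test function. -/
theorem adm_div (hn : 4 ≤ n) [IsFiniteMeasure μ] {φ : E n → ℝ} (h1 : ContDiff ℝ 1 φ)
    (hs : HasCompactSupport φ) (h0 : ∀ x, 0 ≤ φ x) (hN : 0 < ∫ p, φ p.1 ^ qe n ∂μ) :
    Adm μ fun x => φ x / (∫ p, φ p.1 ^ qe n ∂μ) ^ (1 / qe n) := by
  have hq : 0 < qe n := by linarith [two_lt_qe hn]
  refine ⟨h1.div_const _, hs.comp_left (g := fun t => t / _) (zero_div _),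
    fun x => div_nonneg (h0 x) (Real.rpow_nonneg hN.le _), ?_⟩
  have e1 : ∀ p : E n × E n, (φ p.1 / (∫ p, φ p.1 ^ qe n ∂μ) ^ (1 / qe n)) ^ qe n =
      φ p.1 ^ qe n / ∫ p, φ p.1 ^ qe n ∂μ := fun p => by
    rw [Real.div_rpow (h0 _) (Real.rpow_nonneg hN.le _), ← Real.rpow_mul hN.le,
      one_div_mul_cancel hq.ne', Real.rpow_one]
  simp only [e1]
  rw [integral_div, div_self hN.ne']

theorem adm_nonempty (hn : 4 ≤ n) [IsFiniteMeasure μ] (hμ : μ ≠ 0) : ∃ u, Adm μ u := by
  have hq : 0 < qe n := by linarith [two_lt_qe hn]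
  set B : ℕ → Set (E n × E n) := fun k => {p | ‖p.1‖ ≤ k} with hB
  have hcov : (⋃ k, B k) = univ := eq_univ_of_forall fun p =>
    mem_iUnion.2 ⟨⌈‖p.1‖⌉₊, show ‖p.1‖ ≤ _ from Nat.le_ceil _⟩
  obtain ⟨k, hk⟩ : ∃ k, μ (B k) ≠ 0 := by
    by_contra h
    push Not at h
    exact hμ (Measure.measure_univ_eq_zero.1 (by rw [← hcov]; exact measure_iUnion_null h))
  let bmp : ContDiffBump (0 : E n) := ⟨(k : ℝ) + 1, k + 2, by positivity, by linarith⟩
  have h0 : ∀ x, 0 ≤ bmp x := fun x => bmp.nonneg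
  refine ⟨_, adm_div hn bmp.contDiff bmp.hasCompactSupport h0 ?_⟩
  have hB0 : 0 < μ.real (B k) := ENNReal.toReal_pos hk (measure_ne_top _ _)
  have hint : Integrable (fun p : E n × E n => bmp p.1 ^ qe n) μ := by
    refine Integrable.of_bound ((bmp.continuous.comp continuous_fst).rpow_const
      fun _ => Or.inr hq.le).aestronglyMeasurable 1 (ae_of_all _ fun p => ?_)
    rw [Real.norm_eq_abs, abs_of_nonneg (Real.rpow_nonneg (h0 _) _)]
    exact Real.rpow_le_one (h0 _) bmp.le_one hq.le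
  have hBm : MeasurableSet (B k) :=
    measurableSet_le (continuous_fst.norm.measurable) measurable_const
  calc (0 : ℝ) < μ.real (B k) := hB0
    _ = ∫ p, (B k).indicator (fun _ => (1 : ℝ)) p ∂μ := by
        rw [integral_indicator_const _ hBm, smul_eq_mul, mul_one]
    _ ≤ _ := by
      refine integral_mono ((integrable_const _).indicator hBm) hint fun p => ?_
      by_cases hp : p ∈ B k
      · have : bmp p.1 = 1 := bmp.one_of_mem_closedBall (by
          simp only [B, mem_setOf_eq] at hp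
          simpa using hp.trans (by linarith : (k : ℝ) ≤ k + 1))
        simp [hp, this]
      · simp [hp, Real.rpow_nonneg (h0 _)]

end

end Vale.Agent.P219.CH.Full.Concentration
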