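import Vale.Agent.P219.CH.Full.Concentration.Tools

/-!
P219, the concentration step: at almost minimisers `v = u / w^α` is close to the constant `M` with
`Y M^(q-2) = m (m-1)`, and a fixed part of the mass has weight comparable with the largest one.
-/

namespace Vale.Agent.P219.CH.Full.Concentration

open MeasureTheory Filter Topology Set
open scoped ContDiff

noncomputable section

variable {n : ℕ} {G : Coeff n} {Γ : Geo G} {e h₀ a M : ℝ} {z : E n} {u : E n → ℝ}

theorem contDiff_vfun (hw : ContDiff ℝ 1 (wgt Γ e z a)) (hwp : ∀ y, 0 < wgt Γ e z a y)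
    (hu : ContDiff ℝ 1 u) : ContDiff ℝ 1 (vfun Γ e z a u) :=
  hu.div (hw.rpow_const_of_ne fun y => (hwp y).ne')
    fun y => (Real.rpow_pos_of_pos (hwp y) _).ne'

theorem vfun_nonneg (hwp : ∀ y, 0 < wgt Γ e z a y) (h : ∀ y, 0 ≤ u y) (y : E n) :
    0 ≤ vfun Γ e z a u y := div_nonneg (h y) (Real.rpow_nonneg (hwp y).le _)

theorem u_eq (hwp : ∀ y, 0 < wgt Γ e z a y) (y : E n) :
    u y = vfun Γ e z a u y * wgt Γ e z a y ^ al n :=
  (div_mul_cancel₀ _ (Real.rpow_pos_of_pos (hwp y) _).ne').symm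

theorem u_pow (hn : 4 ≤ n) (hwp : ∀ y, 0 < wgt Γ e z a y) (h : ∀ y, 0 ≤ u y) (y : E n) :
    u y ^ qe n = vfun Γ e z a u y ^ qe n * wgt Γ e z a y ^ (n - 1) := by
  have hw := hwp y
  conv_lhs => rw [u_eq (u := u) hwp y]
  rw [Real.mul_rpow (vfun_nonneg hwp h y) (Real.rpow_nonneg hw.le _), ← Real.rpow_mul hw.le,
    mul_comm (al n), qe_al hn, md_eq_cast (by omega), Real.rpow_natCast]

theorem u_pow' (hn : 4 ≤ n) (hwp : ∀ y, 0 < wgt Γ e z a y) (h : ∀ y, 0 ≤ u y) (y : E n) :
    u y ^ qe n = vfun Γ e z a u y ^ (qe n - 2) * (wgt Γ e z a y ^ 2 * u y ^ 2) := by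
  have hw := hwp y
  have hq := two_lt_qe hn
  have hv := vfun_nonneg hwp h y
  rw [← Real.rpow_two (u y), ← Real.rpow_two (wgt Γ e z a y)]
  conv_lhs => rw [u_eq (u := u) hwp y]
  conv_rhs => enter [2, 2]; rw [u_eq (u := u) hwp y]
  have e1 : qe n = (qe n - 2) + 2 := by ring
  have hwn : 0 ≤ wgt Γ e z a y ^ al n := Real.rpow_nonneg hw.le _
  rw [Real.mul_rpow hv hwn, Real.mul_rpow hv hwn]
  conv_lhs => rw [e1, Real.rpow_add_of_nonneg hv (by linarith) (by norm_num),
    Real.rpow_add_of_nonneg hwn (by linarith) (by norm_num), ← Real.rpow_mul hw.le (al n) (qe n - 2),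
    mul_comm (al n), qe_sub_two_al hn]
  ring

section

variable {D : Varifold G h₀}

theorem cont_pow (hn : 4 ≤ n) (hu : Adm D.μ u) : Continuous fun x => u x ^ qe n :=
  hu.c1.continuous.rpow_const fun _ => Or.inr (by linarith [two_lt_qe hn])

/-- Continuous functions of the base point times `u^q` are integrable. -/
theorem integrable_mul_pow (hn : 4 ≤ n) (hG : IsMetric G) (hu : Adm D.μ u) {f : E n → ℝ}
    (hf : Continuous f) : Integrable (fun p => f p.1 * u p.1 ^ qe n) D.μ :=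
  D.integrable_fst (f := fun x => f x * u x ^ qe n) hG (hf.fun_mul (cont_pow hn hu))
    (HasCompactSupport.intro hu.supp fun x hx => by
      simp [image_eq_zero_of_notMem_tsupport hx,
        Real.zero_rpow (show qe n ≠ 0 by linarith [two_lt_qe hn])])

theorem integrable_mul_sq (hG : IsMetric G) (hu : Adm D.μ u) {f : E n → ℝ} (hf : Continuous f) :
    Integrable (fun p => f p.1 * u p.1 ^ 2) D.μ :=
  D.integrable_fst (f := fun x => f x * u x ^ 2) hG (hf.fun_mul (hu.c1.continuous.pow 2))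
    (HasCompactSupport.intro hu.supp fun x hx => by
      simp [image_eq_zero_of_notMem_tsupport hx])

theorem pow_le_mass (hn : 4 ≤ n) (hG : IsMetric G) (hu : Adm D.μ u) {f g : E n → ℝ}
    (hf : Continuous f) (hg : Continuous g) (h : ∀ x, f x * u x ^ qe n ≤ g x * u x ^ qe n) :
    ∫ p, f p.1 * u p.1 ^ qe n ∂D.μ ≤ ∫ p, g p.1 * u p.1 ^ qe n ∂D.μ :=
  integral_mono (integrable_mul_pow hn hG hu hf) (integrable_mul_pow hn hG hu hg) fun p => h p.1

/-- A function of `v` with bounded `φ' v` has energy at most the gap. -/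
theorem class_bound (hG : IsMetric G) (hw : ContDiff ℝ 1 (wgt Γ e z a))
    (hwp : ∀ y, 0 < wgt Γ e z a y) (hu : Adm D.μ u) {φ : ℝ → ℝ} (hφ : ContDiff ℝ 1 φ) {C : ℝ}
    (hC : ∀ x, |deriv φ x * x| ≤ C) :
    ∫ p, u p.1 ^ 2 * tgsq G (fun y => φ (vfun Γ e z a u y)) p ∂D.μ ≤
      C ^ 2 * gap Γ e D.μ z a u := by
  have hv := contDiff_vfun hw hwp hu.c1
  have hsv : HasCompactSupport (vfun Γ e z a u) :=
    HasCompactSupport.intro hu.supp fun x hx => by
      simp [vfun, image_eq_zero_of_notMem_tsupport hx]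
  rw [gap, ← integral_const_mul]
  refine integral_mono_ae ?_ ?_ ?_
  · exact D.integrable_of_supp hG ((((hu.c1.continuous.comp continuous_fst).pow 2)).mul
      (continuous_tgsq hG (hφ.comp hv))) hu.supp fun p hp => by
        simp [image_eq_zero_of_notMem_tsupport hp]
  · refine D.integrable_of_supp hG (continuous_const.mul
      (((hw.continuous.comp continuous_fst).rpow_const fun p => Or.inl (hwp p.1).ne').mul
        (continuous_tgsq hG hv))) hsv fun p hp => by simp [tgsq_eq_zero hp]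
  · filter_upwards [D.unit] with p hp
    rw [tgsq_comp hG (hφ.differentiable one_ne_zero _) (hv.differentiable one_ne_zero _)]
    have h0 := tgsq_nonneg hG (vfun Γ e z a u) hp
    have hwn := hwp p.1
    have e1 : u p.1 ^ 2 = vfun Γ e z a u p.1 ^ 2 * wgt Γ e z a p.1 ^ (2 * al n) := by
      conv_lhs => rw [u_eq (u := u) hwp p.1, mul_pow]
      rw [← Real.rpow_natCast (wgt Γ e z a p.1 ^ al n) 2, ← Real.rpow_mul hwn.le, mul_comm (al n)]
      norm_num
    have h2 : (deriv φ (vfun Γ e z a u p.1) * vfun Γ e z a u p.1) ^ 2 ≤ C ^ 2 := by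
      rw [← sq_abs]
      exact pow_le_pow_left₀ (abs_nonneg _) (hC _) 2
    rw [e1]
    have := mul_le_mul_of_nonneg_right h2
      (mul_nonneg (Real.rpow_nonneg hwn.le (2 * al n)) h0)
    linarith

/-- The mass off a neighbourhood of `M` is small. -/
theorem levels (hs : SphereStmt) (ha : AlmostStmt) (hn : 4 ≤ n) (hCH : IsCHe G e)
    (hC : Comp Γ e) (hl : 0 < lam n e h₀) (hM : 0 < M)
    (hY : Yinf D.μ G e h₀ = md n * (md n - 1) / M ^ (qe n - 2)) {δ : ℝ} (hδ : 0 < δ) (hδM : δ < M)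
    {τ : ℝ} (hτ : 0 < τ) :
    ∃ η : ℝ, 0 < η ∧ ∀ u z a, Adm D.μ u →
      energy D.μ G e h₀ u ≤ Yinf D.μ G e h₀ + η → Balanced Γ e D.μ u z a →
      gap Γ e D.μ z a u ≤ τ ∧
      ∫ p, (1 - bump (M - δ) (M - δ / 2) (M + δ / 2) (M + δ) (vfun Γ e z a u p.1)) *
        u p.1 ^ qe n ∂D.μ ≤ τ := by
  have hG := hCH.metric
  have hm := three_le_md hn
  have hq := two_lt_qe hn
  set K := md n * (md n - 1) with hK
  have hK0 : 0 < K := mul_pos (by linarith) (by linarith)
  set hi := up (M + δ / 4) (M + δ / 2) with hhi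
  set lo : ℝ → ℝ := fun x => 1 - up (M - δ / 2) (M - δ / 4) x with hlo
  have hab1 : M + δ / 4 < M + δ / 2 := by linarith
  have hab2 : M - δ / 2 < M - δ / 4 := by linarith
  obtain ⟨C₁, hC₁0, hC₁⟩ := exists_deriv_bound (contDiff_up (M + δ / 4) (M + δ / 2))
    (a := M + δ / 4) (b := M + δ / 2) fun x => deriv_up_out hab1
  obtain ⟨C₂, hC₂0, hC₂⟩ := exists_deriv_bound (φ := lo)
    (contDiff_const.sub (contDiff_up _ _)) (a := M - δ / 2) (b := M - δ / 4) fun x hx => by
      simp only [hlo]; rw [deriv_const_sub, deriv_up_out hab2 hx, neg_zero]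
  set γ₁ := K / M ^ (qe n - 2) - K / (M + δ / 4) ^ (qe n - 2) with hγ₁
  set γ₂ := K / (M - δ / 4) ^ (qe n - 2) - K / M ^ (qe n - 2) with hγ₂
  have hγ₁0 : 0 < γ₁ := sub_pos.2 (div_lt_div_of_pos_left hK0 (Real.rpow_pos_of_pos hM _)
    (Real.rpow_lt_rpow hM.le (by linarith) (by linarith)))
  have hγ₂0 : 0 < γ₂ := sub_pos.2 (div_lt_div_of_pos_left hK0
    (Real.rpow_pos_of_pos (by linarith) _) (Real.rpow_lt_rpow (by linarith) (by linarith)
      (by linarith)))
  set σ := min (min τ 1) (min (τ / 2 * γ₁) (τ / 2 * γ₂)) with hσ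
  have hσ0 : 0 < σ := lt_min (lt_min hτ one_pos) (lt_min (by positivity) (by positivity))
  obtain ⟨η, hη, hA⟩ := ha n G e Γ h₀ hn hCH hC D hl σ (C₁ ^ 2 + C₂ ^ 2) hσ0 (by positivity)
  refine ⟨η, hη, fun u z a hu hE hb => ?_⟩
  obtain ⟨hgap, -, hEul⟩ := hA u z a hu hE hb
  refine ⟨hgap.trans ((min_le_left _ _).trans (min_le_left _ _)), ?_⟩
  obtain ⟨-, hw, hwb, -⟩ := hs n G e Γ (by omega) hCH hC z a hb.pos hb.small
  have hwp : ∀ y, 0 < wgt Γ e z a y := fun y => (hwb y).1
  have hv := contDiff_vfun hw hwp hu.c1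
  have hg1 : gap Γ e D.μ z a u ≤ 1 := hgap.trans ((min_le_left _ _).trans (min_le_right _ _))
  have hhiC : ContDiff ℝ 1 fun y => hi (vfun Γ e z a u y) := (contDiff_up _ _).comp hv
  have hloC : ContDiff ℝ 1 fun y => lo (vfun Γ e z a u y) :=
    contDiff_const.sub ((contDiff_up _ _).comp hv)
  have himem : ∀ x, hi x ∈ Icc (0 : ℝ) 1 := fun x => up_mem _ _ x
  have lomem : ∀ x, lo x ∈ Icc (0 : ℝ) 1 := fun x =>
    ⟨sub_nonneg.2 (up_mem _ _ x).2, sub_le_self _ (up_mem _ _ x).1⟩
  have hB1 : ∫ p, u p.1 ^ 2 * tgsq G (fun y => hi (vfun Γ e z a u y)) p ∂D.μ ≤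
      C₁ ^ 2 + C₂ ^ 2 :=
    (class_bound hG hw hwp hu (contDiff_up _ _) fun x => (hC₁ x).2).trans
      ((mul_le_of_le_one_right (sq_nonneg _) hg1).trans (le_add_of_nonneg_right (sq_nonneg _)))
  have hB2 : ∫ p, u p.1 ^ 2 * tgsq G (fun y => lo (vfun Γ e z a u y)) p ∂D.μ ≤
      C₁ ^ 2 + C₂ ^ 2 :=
    (class_bound hG hw hwp hu (contDiff_const.sub (contDiff_up _ _)) fun x => (hC₂ x).2).trans
      ((mul_le_of_le_one_right (sq_nonneg _) hg1).trans (le_add_of_nonneg_left (sq_nonneg _)))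
  have h1 := (abs_le.1 (hEul _ hhiC (fun x => abs_le.2 ⟨by linarith [(himem (vfun Γ e z a u x)).1],
    (himem _).2⟩) hB1).1).2
  have h2 := (abs_le.1 (hEul _ hloC (fun x => abs_le.2 ⟨by linarith [(lomem (vfun Γ e z a u x)).1],
    (lomem _).2⟩) hB2).1).1
  rw [hY] at h1 h2
  -- above `M`
  have iW : ∀ {φ : E n → ℝ}, Continuous φ →
      Integrable (fun p => wgt Γ e z a p.1 ^ 2 * u p.1 ^ 2 * φ p.1) D.μ := fun {φ} hφ => by
    have := integrable_mul_sq hG hu ((hw.continuous.pow 2).mul hφ)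
    exact this.congr (ae_of_all _ fun p => by simp only [Pi.mul_apply, Pi.pow_apply]; ring)
  have eHi : γ₁ * ∫ p, hi (vfun Γ e z a u p.1) * u p.1 ^ qe n ∂D.μ ≤ σ := by
    have hle : ∫ p, wgt Γ e z a p.1 ^ 2 * u p.1 ^ 2 * hi (vfun Γ e z a u p.1) ∂D.μ ≤
        ((M + δ / 4) ^ (qe n - 2))⁻¹ * ∫ p, hi (vfun Γ e z a u p.1) * u p.1 ^ qe n ∂D.μ := by
      rw [← integral_const_mul]
      refine integral_mono (iW hhiC.continuous)
        ((integrable_mul_pow hn hG hu hhiC.continuous).const_mul _) fun p => ?_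
      simp only
      rcases (himem (vfun Γ e z a u p.1)).1.eq_or_lt with h | h
      · simp [← h]
      · have hx := lt_of_up_pos hab1 h
        rw [le_inv_mul_iff₀ (Real.rpow_pos_of_pos (by linarith) _), u_pow' hn hwp hu.nonneg p.1]
        have := mul_le_mul_of_nonneg_right
          (Real.rpow_le_rpow (by linarith) hx.le (by linarith : 0 ≤ qe n - 2))
          (show 0 ≤ wgt Γ e z a p.1 ^ 2 * u p.1 ^ 2 * hi (vfun Γ e z a u p.1) by positivity)
        linarith
    have := mul_le_mul_of_nonneg_left hle hK0.le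
    rw [hγ₁, div_eq_mul_inv K ((M + δ / 4) ^ (qe n - 2))]
    linarith
  -- below `M`
  have eLo : γ₂ * ∫ p, lo (vfun Γ e z a u p.1) * u p.1 ^ qe n ∂D.μ ≤ σ := by
    have hle : ((M - δ / 4) ^ (qe n - 2))⁻¹ * ∫ p, lo (vfun Γ e z a u p.1) * u p.1 ^ qe n ∂D.μ ≤
        ∫ p, wgt Γ e z a p.1 ^ 2 * u p.1 ^ 2 * lo (vfun Γ e z a u p.1) ∂D.μ := by
      rw [← integral_const_mul]
      refine integral_mono ((integrable_mul_pow hn hG hu hloC.continuous).const_mul _)
        (iW hloC.continuous) fun p => ?_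
      simp only
      rcases (lomem (vfun Γ e z a u p.1)).1.eq_or_lt with h | h
      · simp [← h]
      · have hx : vfun Γ e z a u p.1 ≤ M - δ / 4 := by
          by_contra hx
          simp [hlo, up_eq_one hab2 (not_le.1 hx).le] at h
        rw [inv_mul_le_iff₀ (Real.rpow_pos_of_pos (by linarith) _), u_pow' hn hwp hu.nonneg p.1]
        have := mul_le_mul_of_nonneg_right
          (Real.rpow_le_rpow (vfun_nonneg hwp hu.nonneg _) hx (by linarith : 0 ≤ qe n - 2))
          (show 0 ≤ wgt Γ e z a p.1 ^ 2 * u p.1 ^ 2 * lo (vfun Γ e z a u p.1) by positivity)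
        linarith
    have := mul_le_mul_of_nonneg_left hle hK0.le
    rw [hγ₂, div_eq_mul_inv K ((M - δ / 4) ^ (qe n - 2))]
    linarith
  have f1 : ∫ p, hi (vfun Γ e z a u p.1) * u p.1 ^ qe n ∂D.μ ≤ τ / 2 :=
    le_of_mul_le_mul_left (eHi.trans (((min_le_right _ _).trans (min_le_left _ _)).trans_eq
      (mul_comm _ _))) hγ₁0
  have f2 : ∫ p, lo (vfun Γ e z a u p.1) * u p.1 ^ qe n ∂D.μ ≤ τ / 2 :=
    le_of_mul_le_mul_left (eLo.trans (((min_le_right _ _).trans (min_le_right _ _)).trans_eq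
      (mul_comm _ _))) hγ₂0
  refine (pow_le_mass hn hG hu
    (f := fun x => 1 - bump (M - δ) (M - δ / 2) (M + δ / 2) (M + δ) (vfun Γ e z a u x))
    (g := fun x => hi (vfun Γ e z a u x) + lo (vfun Γ e z a u x))
    (continuous_const.sub ((contDiff_bump _ _ _ _).continuous.comp hv.continuous))
    (hhiC.continuous.add hloC.continuous) fun x => ?_).trans ?_
  · refine mul_le_mul_of_nonneg_right ?_ (Real.rpow_nonneg (hu.nonneg x) _)
    obtain ⟨b0, b1⟩ := bump_mem (M - δ) (M - δ / 2) (M + δ / 2) (M + δ) (vfun Γ e z a u x)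
    have := (himem (vfun Γ e z a u x)).1
    have := (lomem (vfun Γ e z a u x)).1
    rcases lt_or_ge (vfun Γ e z a u x) (M - δ / 2) with h | h
    · have : lo (vfun Γ e z a u x) = 1 := by simp [hlo, up_eq_zero hab2 h.le]
      linarith
    rcases lt_or_ge (M + δ / 2) (vfun Γ e z a u x) with h' | h'
    · have : hi (vfun Γ e z a u x) = 1 := up_eq_one hab1 h'.le
      linarith
    · rw [bump_eq_one (by linarith) (by linarith) h h']; linarith
  · simp only [add_mul]
    rw [integral_add (integrable_mul_pow hn hG hu hhiC.continuous)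
      (integrable_mul_pow hn hG hu hloC.continuous)]
    linarith

/-- A fixed part of the mass has large weight, and `a` is bounded. -/
theorem heavy (hs : SphereStmt) (ha : AlmostStmt) (hn : 4 ≤ n) (hCH : IsCHe G e)
    (hC : Comp Γ e) (hl : 0 < lam n e h₀) (hM : 0 < M)
    (hY : Yinf D.μ G e h₀ = md n * (md n - 1) / M ^ (qe n - 2)) {δ : ℝ} (hδ : 0 < δ)
    (hδM : δ < M) :
    ∃ ε amax η : ℝ, 0 < ε ∧ ε ≤ 1 / 4 ∧ 0 < amax ∧ 0 < η ∧ ∀ u z a, Adm D.μ u →
      energy D.μ G e h₀ u ≤ Yinf D.μ G e h₀ + η → Balanced Γ e D.μ u z a → a ≤ amax ∧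
      1 / 16 ≤ ∫ p, bump (M - δ) (M - δ / 2) (M + δ / 2) (M + δ) (vfun Γ e z a u p.1) *
        up ε (2 * ε) (wgt Γ e z a p.1 / (kk e a / a)) * u p.1 ^ qe n ∂D.μ := by
  have hG := hCH.metric
  have he := hCH.nonneg
  set b := bump (M - δ) (M - δ / 2) (M + δ / 2) (M + δ) with hb_def
  set S := (M + δ) ^ qe n * D.μ.real univ with hS
  have hS0 : 0 ≤ S := mul_nonneg (Real.rpow_nonneg (by linarith) _) measureReal_nonneg
  obtain ⟨ε, hε0, hε4, hεS⟩ : ∃ ε : ℝ, 0 < ε ∧ ε ≤ 1 / 32 ∧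
      S * (2 * ε * Real.sqrt (4 * e + 1)) ^ (n - 1) ≤ 1 / 8 := by
    have h : Tendsto (fun ε : ℝ => S * (2 * ε * Real.sqrt (4 * e + 1)) ^ (n - 1)) (𝓝[>] 0)
        (𝓝 0) := by
      have : Continuous fun ε : ℝ => S * (2 * ε * Real.sqrt (4 * e + 1)) ^ (n - 1) := by fun_prop
      simpa [zero_pow (show n - 1 ≠ 0 by omega)] using (this.tendsto 0).mono_left nhdsWithin_le_nhds
    obtain ⟨ε, h1, h2⟩ := ((h.eventually_le_const (show (0 : ℝ) < 1 / 8 by norm_num)).and
      (Ioo_mem_nhdsGT (show (0 : ℝ) < 1 / 32 by norm_num) : ∀ᶠ x in 𝓝[>] (0 : ℝ),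
        x ∈ Ioo 0 (1 / 32))).exists
    exact ⟨ε, h2.1, h2.2.le, h1⟩
  obtain ⟨η, hη, hlev⟩ := levels hs ha hn hCH hC hl hM hY hδ hδM (show (0 : ℝ) < 1 / 8 by norm_num)
  refine ⟨ε, 8 * (1 + S), η, hε0, by linarith, by positivity, hη, fun u z a hu hE hb => ?_⟩
  obtain ⟨-, hout⟩ := hlev u z a hu hE hb
  obtain ⟨-, hw, hwb, -⟩ := hs n G e Γ (by omega) hCH hC z a hb.pos hb.small
  have hwp : ∀ y, 0 < wgt Γ e z a y := fun y => (hwb y).1
  obtain ⟨hw0, hw0l, hw0u⟩ := w0_bounds he hb.pos hb.small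
  set w0 := kk e a / a with hw0def
  have hv := contDiff_vfun hw hwp hu.c1
  have hbc : Continuous fun x => b (vfun Γ e z a u x) :=
    (contDiff_bump _ _ _ _).continuous.comp hv.continuous
  have hbmem : ∀ x, b (vfun Γ e z a u x) ∈ Icc (0 : ℝ) 1 := fun x => bump_mem _ _ _ _ _
  have hrc : Continuous fun x => wgt Γ e z a x / w0 := hw.continuous.div_const _
  have hzc : Continuous fun x => up ε (2 * ε) (wgt Γ e z a x / w0) :=
    (contDiff_up _ _).continuous.comp hrc
  have hup : ∀ x, 0 < b (vfun Γ e z a u x) →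
      u x ^ qe n ≤ (M + δ) ^ qe n * wgt Γ e z a x ^ (n - 1) := fun x hx => by
    rw [u_pow hn hwp hu.nonneg x]
    exact mul_le_mul_of_nonneg_right (Real.rpow_le_rpow (vfun_nonneg hwp hu.nonneg x)
      (bump_pos (by linarith) (by linarith) hx).2.le (by linarith [two_lt_qe hn]))
      (pow_nonneg (hwp x).le _)
  have hone : ∫ p, (1 : ℝ) * u p.1 ^ qe n ∂D.μ = 1 := by simpa using hu.norm
  have iF : ∀ {f : E n → ℝ}, Continuous f → Integrable (fun p => f p.1 * u p.1 ^ qe n) D.μ :=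
    fun {f} hf => integrable_mul_pow hn hG hu hf
  have hbmass : 7 / 8 ≤ ∫ p, b (vfun Γ e z a u p.1) * u p.1 ^ qe n ∂D.μ := by
    simp only [sub_mul] at hout
    rw [integral_sub (iF continuous_const) (iF hbc), hone] at hout
    linarith
  refine ⟨?_, ?_⟩
  · have h1 : ∫ p, b (vfun Γ e z a u p.1) * u p.1 ^ qe n ∂D.μ ≤ S * w0 ^ (n - 1) := by
      calc _ ≤ ∫ _ : E n × E n, (M + δ) ^ qe n * w0 ^ (n - 1) ∂D.μ := by
            refine integral_mono (iF hbc) (integrable_const _) fun p => ?_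
            rcases (hbmem p.1).1.eq_or_lt with h | h
            · simp only [← h, zero_mul]
              exact mul_nonneg (Real.rpow_nonneg (by linarith) _) (pow_nonneg hw0.le _)
            · refine (mul_le_of_le_one_left (Real.rpow_nonneg (hu.nonneg _) _) (hbmem p.1).2).trans
                ((hup p.1 h).trans ?_)
              exact mul_le_mul_of_nonneg_left (pow_le_pow_left₀ (hwp _).le (hwb p.1).2 _)
                (Real.rpow_nonneg (by linarith) _)
        _ = _ := by rw [integral_const, smul_eq_mul, hS]; ring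
    by_contra hbad
    have hw1 : w0 ^ 2 * (4 * (1 + S)) < 1 := by
      have := mul_lt_mul_of_pos_left (not_le.1 hbad) (pow_pos hw0 2)
      nlinarith
    have hwle : w0 ≤ 1 := by nlinarith
    have : w0 ^ (n - 1) ≤ w0 ^ 2 := pow_le_pow_of_le_one hw0.le hwle (by omega)
    nlinarith [mul_le_mul_of_nonneg_left this hS0]
  · have hr : ∀ x, wgt Γ e z a x / w0 ≤ 1 := fun x => (div_le_one hw0).2 (hwb x).2
    have hz : ∀ x, wgt Γ e z a x / w0 ≤ up ε (2 * ε) (wgt Γ e z a x / w0) + 2 * ε := fun x => by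
      rcases le_or_gt (2 * ε) (wgt Γ e z a x / w0) with h | h
      · rw [up_eq_one (by linarith) h]; linarith [hr x]
      · linarith [(up_mem ε (2 * ε) (wgt Γ e z a x / w0)).1]
    have hsplit : ∫ p, up ε (2 * ε) (wgt Γ e z a p.1 / w0) * u p.1 ^ qe n ∂D.μ ≤
        (∫ p, b (vfun Γ e z a u p.1) * up ε (2 * ε) (wgt Γ e z a p.1 / w0) * u p.1 ^ qe n ∂D.μ) +
          1 / 8 := by
      have hle := pow_le_mass hn hG hu (f := fun x => up ε (2 * ε) (wgt Γ e z a x / w0))
        (g := fun x => b (vfun Γ e z a u x) * up ε (2 * ε) (wgt Γ e z a x / w0) +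
          (1 - b (vfun Γ e z a u x))) hzc ((hbc.mul hzc).add (continuous_const.sub hbc)) fun x => by
        refine mul_le_mul_of_nonneg_right ?_ (Real.rpow_nonneg (hu.nonneg x) _)
        nlinarith [(hbmem x).2, (up_mem ε (2 * ε) (wgt Γ e z a x / w0)).2]
      refine hle.trans ?_
      simp only [add_mul]
      rw [integral_add (integrable_mul_pow hn hG hu (hbc.fun_mul hzc))
        (iF (continuous_const.fun_sub hbc))]
      linarith
    rcases le_or_gt (e * a) (1 / 2) with hea | hea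
    · -- balance
      have hbal := hb.zero _ sphUnit_north
      simp only [sph_north, om0_eq hC hb.pos hb.small] at hbal
      have hbal' : (1 - e * a) = kk e a * ∫ p, wgt Γ e z a p.1 * u p.1 ^ qe n ∂D.μ := by
        rw [← integral_const_mul]
        have : ∫ p, ((1 - e * a) * u p.1 ^ qe n - kk e a * (wgt Γ e z a p.1 * u p.1 ^ qe n)) ∂D.μ
            = 0 := by
          rw [← hbal]; exact integral_congr_ae (ae_of_all _ fun p => by ring)
        rw [integral_sub ((iF (f := fun _ => (1 : ℝ) - e * a) continuous_const))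
          ((iF hw.continuous).const_mul _), integral_const_mul, hu.norm] at this
        linarith
      have hβ : 1 / 4 ≤ ∫ p, wgt Γ e z a p.1 / w0 * u p.1 ^ qe n ∂D.μ := by
        have e1 : ∫ p, wgt Γ e z a p.1 / w0 * u p.1 ^ qe n ∂D.μ =
            (∫ p, wgt Γ e z a p.1 * u p.1 ^ qe n ∂D.μ) / w0 := by
          rw [← integral_div]; exact integral_congr_ae (ae_of_all _ fun p => by ring)
        obtain ⟨hk, hk2⟩ := kk_sq (e := e) hb.pos hb.small
        rw [e1, le_div_iff₀ hw0]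
        refine le_of_mul_le_mul_left ?_ hk
        rw [← hbal', hw0def]
        have : kk e a * (1 / 4 * (kk e a / a)) = (2 - e * a) / 4 := by
          rw [show kk e a * (1 / 4 * (kk e a / a)) = kk e a ^ 2 / a / 4 by ring, hk2]
          field_simp [hb.pos.ne']
        rw [this]
        linarith [mul_nonneg he hb.pos.le]
      have hle := pow_le_mass hn hG hu (g := fun x => up ε (2 * ε) (wgt Γ e z a x / w0) + 2 * ε)
        hrc (hzc.add continuous_const) fun x =>
        mul_le_mul_of_nonneg_right (hz x) (Real.rpow_nonneg (hu.nonneg x) _)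
      simp only [add_mul] at hle
      rw [integral_add (iF hzc) (iF (f := fun _ => 2 * ε) continuous_const), integral_const_mul,
        hu.norm] at hle
      linarith
    · -- `a` is of order `1/e`
      have hw0e : w0 ≤ Real.sqrt (4 * e + 1) := by
        refine Real.le_sqrt_of_sq_le ?_
        have : a * w0 ^ 2 ≤ a * (4 * e) := by nlinarith
        linarith [le_of_mul_le_mul_left this hb.pos]
      have hle : ∫ p, b (vfun Γ e z a u p.1) * (1 - up ε (2 * ε) (wgt Γ e z a p.1 / w0)) *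
          u p.1 ^ qe n ∂D.μ ≤ 1 / 8 := by
        refine (integral_mono (iF (hbc.fun_mul (continuous_const.fun_sub hzc)))
          (integrable_const ((M + δ) ^ qe n * (2 * ε * Real.sqrt (4 * e + 1)) ^ (n - 1)))
          fun p => ?_).trans (le_of_eq_of_le ?_ hεS)
        · obtain ⟨b0, b1⟩ := hbmem p.1
          obtain ⟨z0, z1⟩ := up_mem ε (2 * ε) (wgt Γ e z a p.1 / w0)
          rcases b0.eq_or_lt with h | h
          · simp only [← h, zero_mul]; positivity
          rcases le_or_gt (2 * ε) (wgt Γ e z a p.1 / w0) with h' | h'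
          · simp only [up_eq_one (show ε < 2 * ε by linarith) h', sub_self, mul_zero, zero_mul]
            positivity
          refine (mul_le_of_le_one_left (Real.rpow_nonneg (hu.nonneg _) _)
            (mul_le_one₀ b1 (by linarith) (by linarith))).trans ((hup p.1 h).trans ?_)
          refine mul_le_mul_of_nonneg_left (pow_le_pow_left₀ (hwp _).le ?_ _)
            (Real.rpow_nonneg (by linarith) _)
          calc wgt Γ e z a p.1 ≤ 2 * ε * w0 := ((div_lt_iff₀ hw0).1 h').le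
            _ ≤ _ := mul_le_mul_of_nonneg_left hw0e (by positivity)
        · rw [integral_const, smul_eq_mul, hS]; ring
      simp only [mul_sub, sub_mul, mul_one] at hle
      rw [integral_sub (iF hbc) (iF (hbc.fun_mul hzc))] at hle
      linarith

end

end

end Vale.Agent.P219.CH.Full.Concentration
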