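import Vale.Agent.P219.CH.Full.Concentration.Window
import Vale.Agent.P219.CH.Core.MinTools

/-!
P219, the concentration step: the estimate between the kernel on the sphere and the monotonicity
formula at the points of almost constant `v` and comparable weight.
-/

namespace Vale.Agent.P219.CH.Full.Concentration

open MeasureTheory Filter Topology Set
open scoped ContDiff

noncomputable section

variable {n : ℕ} {G : Coeff n} {Γ : Geo G} {e h₀ : ℝ}

theorem dist_nonneg' (Γ : Geo G) (x y : E n) : 0 ≤ Γ.dist x y := Real.sqrt_nonneg _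

/-- `rad` is monotone in the radius. -/
theorem rad_mono (hn : 3 ≤ n) {ρ σ d : ℝ} (hd : 0 ≤ d) (hρ : 0 ≤ ρ) (h : ρ ≤ σ) :
    rad n ρ d ≤ rad n σ d := by
  rcases hd.eq_or_lt with h0 | h0
  · simp [rad, ← h0]
  have hc : Continuous fun r : ℝ => r ^ (n - 2) / (r ^ 2 + d ^ 2) ^ (n - 1) :=
    (continuous_pow _).div₀ (((continuous_pow 2).add continuous_const).pow _)
      fun r => pow_ne_zero _ (by positivity)
  refine mul_le_mul_of_nonneg_left ?_ hd
  have hi := hc.intervalIntegrable (μ := volume)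
  rw [← intervalIntegral.integral_add_adjacent_intervals (hi 0 ρ) (hi ρ σ)]
  exact le_add_of_nonneg_right (intervalIntegral.integral_nonneg h fun r hr => by
    have : 0 ≤ r := hρ.trans hr.1
    positivity)

theorem rad_nonneg (hn : 3 ≤ n) {ρ d : ℝ} (hd : 0 ≤ d) (hρ : 0 ≤ ρ) : 0 ≤ rad n ρ d := by
  simpa [rad] using rad_mono hn (ρ := 0) (σ := ρ) hd le_rfl hρ

theorem continuous_kern (hG : IsMetric G) {ρ : ℝ} (hρ : 0 < ρ) (x : E n) :
    Continuous fun y => kern n ρ (Γ.dist x y) := by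
  have hd := (Core.Mini.continuous_dist Γ hG).comp
    ((continuous_const (y := x)).prodMk (continuous_id (X := E n)))
  exact ((continuous_const (y := ρ)).div₀ (continuous_const.add (hd.pow 2))
    fun y => (add_pos_of_pos_of_nonneg (pow_pos hρ 2) (sq_nonneg _)).ne').pow _

theorem kern_nonneg {ρ : ℝ} (hρ : 0 < ρ) (d : ℝ) : 0 ≤ kern n ρ d := by
  unfold kern; positivity

/-- The kernel on the sphere dominates the kernel on `M`. -/
theorem kernel_compare {l κ d wx wy t : ℝ} (hl0 : 0 < l) (hl1 : l < 1) (hwx : 0 < wx)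
    (hd : 0 ≤ d) (hwy : wx * Real.exp (-(2 * κ)) ≤ wy)
    (ht : 2 - 2 * t ≤ (wx * Real.exp (2 * κ) * d) ^ 2) (ht1 : t ≤ 1) :
    ((1 + l) * Real.exp (-(4 * κ))) ^ (n - 1) *
        kern n ((1 - l) / (wx * Real.exp (2 * κ))) d ≤
      ((1 - l ^ 2) / (1 + l ^ 2 - 2 * l * t)) ^ (n - 1) * wy ^ (n - 1) := by
  set W := wx * Real.exp (2 * κ) with hWdef
  have hW : 0 < W := by positivity
  set ρ := (1 - l) / W with hρdef
  have h1l : 0 < 1 - l := by linarith
  have hρ : 0 < ρ := div_pos h1l hW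
  have hD : 0 < 1 + l ^ 2 - 2 * l * t := by nlinarith [sq_pos_of_pos h1l]
  have hDle : 1 + l ^ 2 - 2 * l * t ≤ W ^ 2 * (ρ ^ 2 + d ^ 2) := by
    have e1 : W ^ 2 * (ρ ^ 2 + d ^ 2) = (1 - l) ^ 2 + (W * d) ^ 2 := by
      rw [hρdef]; field_simp
    rw [e1]
    nlinarith [mul_le_mul_of_nonneg_left ht hl0.le, sq_nonneg (W * d)]
  have hwy0 : 0 ≤ wy := le_trans (by positivity) hwy
  rw [kern, ← mul_pow, ← mul_pow]
  refine pow_le_pow_left₀ (by positivity) ?_ _
  calc (1 + l) * Real.exp (-(4 * κ)) * (ρ / (ρ ^ 2 + d ^ 2))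
      = (1 - l ^ 2) / (W ^ 2 * (ρ ^ 2 + d ^ 2)) * (wx * Real.exp (-(2 * κ))) := by
        rw [hρdef, show Real.exp (-(4 * κ)) = Real.exp (-(2 * κ)) * (Real.exp (2 * κ))⁻¹ by
          rw [← Real.exp_neg, ← Real.exp_add]; ring_nf]
        rw [hWdef]
        field_simp
        ring
    _ ≤ (1 - l ^ 2) / (1 + l ^ 2 - 2 * l * t) * wy := by
        refine mul_le_mul ?_ hwy (by positivity) (div_nonneg (by nlinarith) hD.le)
        exact div_le_div_of_nonneg_left (by nlinarith) hD hDle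

/-- The pointwise form: monotonicity on `M` against monotonicity on the sphere. -/
theorem point_est (hk : KernelStmt) (hr : RadIntStmt) (hn : 4 ≤ n) (hCH : IsCHe G e)
    (hC : Comp Γ e) (D : Datum Γ h₀) {u g : E n → ℝ} {z : E n} {a l κ τ U ρs Cs : ℝ}
    (hu : Adm D.μ u) (ha : 0 < a) (hl0 : 0 < l) (hl1 : l < 1) (hκ : 0 < κ)
    (hg : ContDiff ℝ 1 g) (hgs : HasCompactSupport g) (hg0 : ∀ x, 0 ≤ g x) (hg1 : ∀ x, g x ≤ 1)
    (hU : 0 ≤ U) (hsphC : ∀ p, ContDiff ℝ 1 (sph Γ e z a p))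
    (hwp : ∀ y, 0 < wgt Γ e z a y) (homU : ∀ y, SphUnit G z (omg Γ e z a y))
    (hsph1 : ∀ p, SphUnit G z p → ∀ y, |sph Γ e z a p y| ≤ 1)
    (hharn : ∀ x y, wgt Γ e z a x * Real.exp (-(2 * Γ.dist x y / Real.sqrt a)) ≤ wgt Γ e z a y)
    (hchord : ∀ x y, 2 - 2 * sph Γ e z a (omg Γ e z a x) y ≤
      (wgt Γ e z a x * Real.exp (2 * Γ.dist x y / Real.sqrt a) * Γ.dist x y) ^ 2)
    (hgwm : ∀ y, g y * wgt Γ e z a y ^ (n - 1) ≤ U * u y ^ qe n)
    (hpois : ∀ p₀, SphUnit G z p₀ →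
      ∫ p, ((1 - l ^ 2) / (1 + l ^ 2 - 2 * l * sph Γ e z a p₀ p.1)) ^ (n - 1) *
        u p.1 ^ qe n ∂D.μ ≤ 1 + τ)
    (htail : ∀ (ρ R : ℝ), 0 < ρ → 0 < R → ∀ x : E n,
      ∫ q in {q | R < Γ.dist x q.1}, kern n ρ (Γ.dist x q.1) ∂D.μ ≤ Cs * (ρ / R) ^ (n - 1)) :
    ∀ᵐ p ∂D.μ, g p.1 = 1 →
      (1 - l) / (wgt Γ e z a p.1 * Real.exp (2 * κ)) ≤ ρs →
      ((1 + l) * Real.exp (-(4 * κ))) ^ (n - 1) * (sphA n / 2 ^ (n - 1)) ≤ (1 + τ) * U +
        ((1 + l) * Real.exp (-(4 * κ))) ^ (n - 1) *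
          ((∫ q, rad n ρs (Γ.dist p.1 q.1) * (h₀ * g q.1 + Real.sqrt (tgsq G g q)) ∂D.μ) +
            Cs * ((1 - l) / (wgt Γ e z a p.1 * Real.exp (2 * κ)) / (κ * Real.sqrt a)) ^ (n - 1)) := by
  have hG := hCH.metric
  have hn3 : 3 ≤ n := by omega
  filter_upwards [hk n G e Γ h₀ hn3 hCH hC D g hg hgs hg0] with p hp hgx hρle
  set x := p.1
  set c₁ := ((1 + l) * Real.exp (-(4 * κ))) ^ (n - 1) with hc₁
  have hc₁0 : 0 ≤ c₁ := by positivity
  have h1l : 0 < 1 - l := by linarith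
  set ρx := (1 - l) / (wgt Γ e z a x * Real.exp (2 * κ)) with hρx
  have hρx0 : 0 < ρx := div_pos h1l (mul_pos (hwp x) (Real.exp_pos _))
  have hker := hp ρx hρx0
  rw [hgx, mul_one] at hker
  set H : E n × E n → ℝ := fun q => h₀ * g q.1 + Real.sqrt (tgsq G g q) with hH
  have hh0 : 0 ≤ h₀ := (abs_nonneg _).trans (D.h_le 0)
  have hHC : Continuous H := (continuous_const.mul (hg.continuous.comp continuous_fst)).add
    (continuous_tgsq hG hg).sqrt
  have hHK : ∀ q : E n × E n, q.1 ∉ tsupport g → H q = 0 := fun q hq => by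
    simp only [hH]
    rw [tgsq_eq_zero hq]
    simp [image_eq_zero_of_notMem_tsupport hq]
  have hradle : ∫ q, rad n ρx (Γ.dist x q.1) * H q ∂D.μ ≤
      ∫ q, rad n ρs (Γ.dist x q.1) * H q ∂D.μ :=
    integral_mono (hr n G e Γ h₀ hn3 hCH hC D.toVarifold x ρx hρx0 H _ hgs hHC hHK)
      (hr n G e Γ h₀ hn3 hCH hC D.toVarifold x ρs (hρx0.trans_le hρle) H _ hgs hHC hHK)
      fun q => mul_le_mul_of_nonneg_right (rad_mono hn3 (dist_nonneg' Γ _ _) hρx0.le hρle)
        (add_nonneg (mul_nonneg hh0 (hg0 _)) (Real.sqrt_nonneg _))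
  set R := κ * Real.sqrt a with hR
  have hR0 : 0 < R := mul_pos hκ (Real.sqrt_pos.2 ha)
  set Kf : E n → ℝ := fun y =>
    ((1 - l ^ 2) / (1 + l ^ 2 - 2 * l * sph Γ e z a (omg Γ e z a x) y)) ^ (n - 1) with hKf
  have hp0 : SphUnit G z (omg Γ e z a x) := homU x
  have ht1 : ∀ y, sph Γ e z a (omg Γ e z a x) y ≤ 1 := fun y =>
    (abs_le.1 (hsph1 _ hp0 y)).2
  have hDpos : ∀ y, 0 < 1 + l ^ 2 - 2 * l * sph Γ e z a (omg Γ e z a x) y := fun y => by
    have := mul_le_mul_of_nonneg_left (ht1 y) (by linarith : (0 : ℝ) ≤ 2 * l)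
    linarith [sq_pos_of_pos h1l, show (1 - l) ^ 2 = 1 + l ^ 2 - 2 * l * 1 by ring]
  have hKfC : Continuous Kf := ((continuous_const.div₀ (continuous_const.sub
    (continuous_const.mul (hsphC _).continuous)) fun y => (hDpos y).ne')).pow _
  have hKf0 : ∀ y, 0 ≤ Kf y := fun y =>
    pow_nonneg (div_nonneg (by nlinarith) (hDpos y).le) _
  set kf : E n → ℝ := fun y => kern n ρx (Γ.dist x y) with hkf
  have hkfC : Continuous kf := continuous_kern hG hρx0 x
  set S : Set (E n × E n) := {q | R < Γ.dist x q.1} with hS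
  have hSm : MeasurableSet S := measurableSet_lt measurable_const
    (((Core.Mini.continuous_dist Γ hG).comp (continuous_const.prodMk continuous_fst)).measurable)
  have ikg : Integrable (fun q => kf q.1 * g q.1) D.μ :=
    D.integrable_fst (f := fun y => kf y * g y) hG (hkfC.fun_mul hg.continuous) hgs.mul_left
  have iKν : Integrable (fun q => Kf q.1 * u q.1 ^ qe n) D.μ := integrable_mul_pow hn hG hu hKfC
  have ikS : Integrable (S.indicator fun q => kf q.1) D.μ := by
    refine (Integrable.of_bound (C := (ρx / ρx ^ 2) ^ (n - 1))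
      (hkfC.comp continuous_fst).aestronglyMeasurable (ae_of_all _ fun q => ?_)).indicator hSm
    rw [Function.comp_apply, Real.norm_eq_abs, abs_of_nonneg (kern_nonneg hρx0 _)]
    refine pow_le_pow_left₀ (by positivity) ?_ _
    exact div_le_div_of_nonneg_left hρx0.le (by positivity) (le_add_of_nonneg_right (sq_nonneg _))
  have hmain : c₁ * ∫ q, kf q.1 * g q.1 ∂D.μ ≤
      U * (1 + τ) + c₁ * ∫ q in S, kf q.1 ∂D.μ := by
    calc c₁ * ∫ q, kf q.1 * g q.1 ∂D.μ
        ≤ ∫ q, (U * (Kf q.1 * u q.1 ^ qe n) + c₁ * S.indicator (fun q => kf q.1) q) ∂D.μ := by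
          rw [← integral_const_mul]
          refine integral_mono (ikg.const_mul _) ((iKν.const_mul _).add (ikS.const_mul _))
            fun q => ?_
          simp only
          have hk0 : 0 ≤ kf q.1 := kern_nonneg hρx0 _
          by_cases hq : q ∈ S
          · rw [indicator_of_mem hq]
            have e1 := mul_le_mul_of_nonneg_left (mul_le_of_le_one_right hk0 (hg1 q.1)) hc₁0
            have e2 : 0 ≤ U * (Kf q.1 * u q.1 ^ qe n) :=
              mul_nonneg hU (mul_nonneg (hKf0 _) (Real.rpow_nonneg (hu.nonneg _) _))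
            linarith
          · rw [indicator_of_notMem hq, mul_zero, add_zero]
            have hd : Γ.dist x q.1 ≤ κ * Real.sqrt a := not_lt.1 hq
            have hsa : 0 < Real.sqrt a := Real.sqrt_pos.2 ha
            have h2κ : 2 * Γ.dist x q.1 / Real.sqrt a ≤ 2 * κ := by
              rw [div_le_iff₀ hsa]; linarith
            have hK1 := kernel_compare (n := n) (κ := κ) (d := Γ.dist x q.1)
              (wx := wgt Γ e z a x) (wy := wgt Γ e z a q.1)
              (t := sph Γ e z a (omg Γ e z a x) q.1) hl0 hl1 (hwp x) (dist_nonneg' Γ _ _)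
              ((mul_le_mul_of_nonneg_left (Real.exp_le_exp.2 (by linarith)) (hwp x).le).trans
                (hharn x q.1))
              ((hchord x q.1).trans (pow_le_pow_left₀ (mul_nonneg (mul_nonneg (hwp x).le
                (Real.exp_pos _).le) (dist_nonneg' Γ _ _)) (mul_le_mul_of_nonneg_right
                (mul_le_mul_of_nonneg_left (Real.exp_le_exp.2 h2κ) (hwp x).le)
                (dist_nonneg' Γ _ _)) 2)) (ht1 q.1)
            calc c₁ * (kf q.1 * g q.1) ≤ Kf q.1 * wgt Γ e z a q.1 ^ (n - 1) * g q.1 := by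
                  rw [← mul_assoc]
                  exact mul_le_mul_of_nonneg_right hK1 (hg0 _)
              _ = Kf q.1 * (g q.1 * wgt Γ e z a q.1 ^ (n - 1)) := by ring
              _ ≤ Kf q.1 * (U * u q.1 ^ qe n) := mul_le_mul_of_nonneg_left (hgwm _) (hKf0 _)
              _ = _ := by ring
      _ = U * ∫ q, Kf q.1 * u q.1 ^ qe n ∂D.μ + c₁ * ∫ q in S, kf q.1 ∂D.μ := by
          rw [integral_add (iKν.const_mul _) (ikS.const_mul _), integral_const_mul,
            integral_const_mul, integral_indicator hSm]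
      _ ≤ _ := by
          have := mul_le_mul_of_nonneg_left (hpois _ hp0) hU
          linarith
  have hT' := mul_le_mul_of_nonneg_left (htail ρx R hρx0 hR0 x) hc₁0
  have := mul_le_mul_of_nonneg_left (hker.trans (add_le_add le_rfl hradle)) hc₁0
  simp only [hkf, hS] at hmain
  linarith

/-- The main estimate. -/
theorem main_est (hk : KernelStmt) (hsc : SchurStmt) (hr : RadIntStmt) (hs : SphereStmt)
    (hn : 4 ≤ n) (hCH : IsCHe G e) (hC : Comp Γ e) (D : Datum Γ h₀) {M δ ε amax κ : ℝ}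
    (hδ : 0 < δ) (hδM : 2 * δ < M) (hε : 0 < ε) (hκ : 0 < κ) :
    ∃ C : ℝ, ∀ l τ : ℝ, 0 < l → l < 1 → ∀ u z a, Adm D.μ u →
      Balanced Γ e D.μ u z a → a ≤ amax → gap Γ e D.μ z a u ≤ 1 →
      (∀ p₀, SphUnit G z p₀ →
        ∫ p, ((1 - l ^ 2) / (1 + l ^ 2 - 2 * l * sph Γ e z a p₀ p.1)) ^ (n - 1) *
          u p.1 ^ qe n ∂D.μ ≤ 1 + τ) →
      ((1 + l) * Real.exp (-(4 * κ))) ^ (n - 1) * (sphA n / 2 ^ (n - 1)) *
          ∫ p, core Γ e M δ ε u z a p.1 * wgt Γ e z a p.1 ^ (n - 1) ∂D.μ ≤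
        (1 + τ) * ((M - 2 * δ) ^ qe n)⁻¹ *
          (∫ p, core Γ e M δ ε u z a p.1 * wgt Γ e z a p.1 ^ (n - 1) ∂D.μ) + C * (1 - l) := by
  have hG := hCH.metric
  have hn3 : 3 ≤ n := by omega
  obtain ⟨Cs, hCs, hschur, htail, -⟩ := hsc n G e Γ h₀ hn3 hCH hC D.toVarifold
  obtain ⟨C₃, hC₃, hsqb⟩ := wide_sq_bound (Γ := Γ) (e := e) hn hG hCH.nonneg D.toVarifold hδ hδM hε
  set U := ((M - 2 * δ) ^ qe n)⁻¹ with hU
  have hU0 : 0 ≤ U := inv_nonneg.2 (Real.rpow_nonneg (by linarith) _)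
  set ε' := ε / 4 with hε'
  have hε'0 : 0 < ε' := by positivity
  set P := Cs / ε' * Real.sqrt (U * C₃) * Real.sqrt (|amax| + 1) with hP
  set Q := Cs / (ε' * κ) ^ (n - 1) with hQ
  refine ⟨2 ^ (n - 1) * (P + Q * U), fun l τ hl0 hl1 u z a hu hb hamax hgap hpois => ?_⟩
  obtain ⟨hsphC, hw, hwb, homU, hsph1, -, -, hgradw, hharn, hchord⟩ :=
    hs n G e Γ (by omega) hCH hC z a hb.pos hb.small
  have hwp : ∀ y, 0 < wgt Γ e z a y := fun y => (hwb y).1
  obtain ⟨hw0, hw0l, -⟩ := w0_bounds hCH.nonneg hb.pos hb.small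
  have hH2 := hsqb u z a hu hb.pos hb.small hw hwb hgradw hgap
  set w0 := kk e a / a with hw0def
  have h1l : 0 < 1 - l := by linarith
  set g := wide Γ e M δ ε u z a with hg
  have hgC : ContDiff ℝ 1 g := contDiff_wide hw hwp hu.c1
  have hgK : ∀ x, x ∉ tsupport u → g x = 0 := fun x hx => wide_eq_zero hδ hδM hx
  have hgs : HasCompactSupport g := HasCompactSupport.intro hu.supp hgK
  set f : E n × E n → ℝ := fun p =>
    core Γ e M δ ε u z a p.1 * wgt Γ e z a p.1 ^ (n - 1) with hf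
  set H : E n × E n → ℝ := fun q => h₀ * g q.1 + Real.sqrt (tgsq G g q) with hH
  have hh0 : 0 ≤ h₀ := (abs_nonneg _).trans (D.h_le 0)
  have hfC : Continuous f := ((continuous_core hw hwp hu.c1).comp continuous_fst).mul
    ((hw.continuous.comp continuous_fst).pow _)
  have hHC : Continuous H := (continuous_const.mul (hgC.continuous.comp continuous_fst)).add
    (continuous_tgsq hG hgC).sqrt
  have hf0 : ∀ p, 0 ≤ f p := fun p => mul_nonneg (core_mem _).1 (pow_nonneg (hwp _).le _)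
  have hH0 : ∀ p, 0 ≤ H p := fun p =>
    add_nonneg (mul_nonneg hh0 (wide_mem _).1) (Real.sqrt_nonneg _)
  have hfK : ∀ p : E n × E n, p.1 ∉ tsupport u → f p = 0 := fun p hp => by
    simp [hf, core_eq_zero hδ hδM hp]
  have hHK : ∀ p : E n × E n, p.1 ∉ tsupport u → H p = 0 := fun p hp => by
    simp only [hH]
    rw [tgsq_eq_zero (u := g) fun h => hp (tsupport_wide hδ hδM h)]
    simp [hgK _ hp]
  set ρs := (1 - l) / (ε' * w0) with hρs
  have hρs0 : 0 < ρs := by positivity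
  obtain ⟨hSi, hSb⟩ := hschur ρs hρs0 f H (tsupport u) hu.supp hfC hHC hf0 hH0 hfK hHK
  have iν : Integrable (fun p : E n × E n => U * u p.1 ^ qe n) D.μ := by
    have h := integrable_mul_pow hn hG hu (continuous_const (y := (1 : ℝ)))
    exact (h.congr (ae_of_all _ fun p => one_mul _)).const_mul U
  have hνint : ∫ p, U * u p.1 ^ qe n ∂D.μ = U := by rw [integral_const_mul, hu.norm, mul_one]
  have hfν : ∀ p, f p ≤ U * u p.1 ^ qe n := fun p => by
    rcases (core_mem (M := M) (δ := δ) (ε := ε) (Γ := Γ) (e := e) (u := u) (z := z) (a := a)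
      p.1).1.eq_or_lt with h | h
    · simp only [hf, ← h, zero_mul]
      exact mul_nonneg hU0 (Real.rpow_nonneg (hu.nonneg _) _)
    · exact (mul_le_of_le_one_left (pow_nonneg (hwp _).le _) (core_mem _).2).trans
        (dom hn hwp hu.nonneg hδM (wide_of_core hδ hε h).2.1)
  have if' : Integrable f D.μ := D.integrable_of_supp hG hfC hu.supp hfK
  have hI0 : 0 ≤ ∫ p, f p ∂D.μ := integral_nonneg hf0
  have hIU : ∫ p, f p ∂D.μ ≤ U := by rw [← hνint]; exact integral_mono if' iν hfν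
  have hf2 : ∫ p, f p ^ 2 ∂D.μ ≤ w0 ^ (n - 1) * U := by
    rw [← hνint, ← integral_const_mul]
    refine integral_mono (D.integrable_of_supp hG (hfC.pow 2) hu.supp fun p hp => by
      simp [hfK p hp]) (iν.const_mul _) fun p => ?_
    simp only [sq]
    exact mul_le_mul ((mul_le_of_le_one_left (pow_nonneg (hwp _).le _) (core_mem _).2).trans
      (pow_le_pow_left₀ (hwp _).le (hwb _).2 _)) (hfν p) (hf0 p) (pow_nonneg hw0.le _)
  have hErr : ∫ p, f p * (∫ q, rad n ρs (Γ.dist p.1 q.1) * H q ∂D.μ) ∂D.μ ≤ P * (1 - l) := by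
    refine hSb.trans ?_
    have hs1 : Real.sqrt (∫ p, f p ^ 2 ∂D.μ) * Real.sqrt (∫ p, H p ^ 2 ∂D.μ) ≤
        Real.sqrt (U * C₃) * Real.sqrt (1 + 1 / a) := by
      rw [← Real.sqrt_mul (integral_nonneg fun p => sq_nonneg _),
        ← Real.sqrt_mul (by positivity)]
      refine Real.sqrt_le_sqrt ((mul_le_mul hf2 hH2 (integral_nonneg fun p => sq_nonneg _)
        (by positivity)).trans_eq ?_)
      field_simp
    have hsa : Real.sqrt (1 + 1 / a) / w0 ≤ Real.sqrt (|amax| + 1) := by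
      rw [div_le_iff₀ hw0, ← Real.sqrt_sq hw0.le, ← Real.sqrt_mul (by positivity)]
      refine Real.sqrt_le_sqrt ?_
      rw [one_add_div hb.pos.ne', div_le_iff₀ hb.pos]
      have := mul_le_mul_of_nonneg_left hw0l (show 0 ≤ |amax| + 1 by positivity)
      linarith [le_abs_self amax]
    calc Cs * ρs * Real.sqrt (∫ p, f p ^ 2 ∂D.μ) * Real.sqrt (∫ p, H p ^ 2 ∂D.μ)
        = Cs * ρs * (Real.sqrt (∫ p, f p ^ 2 ∂D.μ) * Real.sqrt (∫ p, H p ^ 2 ∂D.μ)) := by ring
      _ ≤ Cs * ρs * (Real.sqrt (U * C₃) * Real.sqrt (1 + 1 / a)) :=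
          mul_le_mul_of_nonneg_left hs1 (by positivity)
      _ = Cs / ε' * Real.sqrt (U * C₃) * (Real.sqrt (1 + 1 / a) / w0) * (1 - l) := by
          rw [hρs]; ring
      _ ≤ _ := by rw [hP]; gcongr
  set c₁ := ((1 + l) * Real.exp (-(4 * κ))) ^ (n - 1) with hc₁
  have hc₁0 : 0 ≤ c₁ := by positivity
  have hc₁2 : c₁ ≤ (2 : ℝ) ^ (n - 1) := pow_le_pow_left₀ (by positivity)
    ((mul_le_of_le_one_right (by linarith) (Real.exp_le_one_iff.2 (by linarith))).trans
      (by linarith)) _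
  set T := Q * (1 - l) with hT
  have hT0 : 0 ≤ T := by positivity
  have hpt : ∀ᵐ p ∂D.μ, c₁ * (sphA n / 2 ^ (n - 1)) * f p ≤
      (1 + τ) * U * f p +
        c₁ * (f p * (∫ q, rad n ρs (Γ.dist p.1 q.1) * H q ∂D.μ) + T * f p) := by
    filter_upwards [point_est (κ := κ) (ρs := ρs) hk hr hn hCH hC D hu hb.pos hl0 hl1 hκ hgC hgs
      (fun x => (wide_mem x).1) (fun x => (wide_mem x).2) hU0 hsphC hwp homU hsph1 hharn hchord
      (wide_mul_le hn hwp hu.nonneg hδ hδM) hpois htail] with p hp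
    rcases (core_mem (M := M) (δ := δ) (ε := ε) (Γ := Γ) (e := e) (u := u) (z := z) (a := a)
      p.1).1.eq_or_lt with h | h
    · simp [hf, ← h]
    obtain ⟨hgx, -, hwx⟩ := wide_of_core hδ hε h
    set ρx := (1 - l) / (wgt Γ e z a p.1 * Real.exp (2 * κ)) with hρx
    have hρx0 : 0 < ρx := div_pos h1l (mul_pos (hwp _) (Real.exp_pos _))
    have hρle : ρx ≤ ρs := div_le_div_of_nonneg_left h1l.le (by positivity)
      (((lt_div_iff₀ hw0).1 hwx).le.trans
        (le_mul_of_one_le_right (hwp _).le (Real.one_le_exp (by positivity))))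
    have hT' : Cs * (ρx / (κ * Real.sqrt a)) ^ (n - 1) ≤ T := by
      rw [hT, hQ, div_mul_eq_mul_div, mul_div_assoc]
      refine mul_le_mul_of_nonneg_left ?_ hCs
      have hR0 : 0 < κ * Real.sqrt a := mul_pos hκ (Real.sqrt_pos.2 hb.pos)
      calc (ρx / (κ * Real.sqrt a)) ^ (n - 1) ≤ ((1 - l) / (ε' * κ)) ^ (n - 1) := by
            refine pow_le_pow_left₀ (by positivity) ?_ _
            rw [div_le_div_iff₀ hR0 (by positivity)]
            have h1 : ρx * (ε' * w0) ≤ 1 - l := by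
              rw [← le_div_iff₀ (by positivity)]; exact hρle
            have h2 : 1 ≤ w0 * Real.sqrt a := by
              rw [← Real.sqrt_sq hw0.le, ← Real.sqrt_mul (sq_nonneg _), ← Real.sqrt_one]
              exact Real.sqrt_le_sqrt (by linarith)
            have h3 : ρx * ε' ≤ ρx * (ε' * w0) * Real.sqrt a := by
              rw [mul_assoc, mul_assoc]
              exact mul_le_mul_of_nonneg_left (le_mul_of_one_le_right hε'0.le h2) hρx0.le
            have h4 := mul_le_mul_of_nonneg_right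
              (h3.trans (mul_le_mul_of_nonneg_right h1 (Real.sqrt_nonneg a))) hκ.le
            linarith
        _ ≤ _ := by
            rw [div_pow]
            exact div_le_div_of_nonneg_right
              (pow_le_of_le_one h1l.le (by linarith) (by omega)) (by positivity)
    have h6 := mul_le_mul_of_nonneg_right ((hp hgx hρle).trans
      (add_le_add le_rfl (mul_le_mul_of_nonneg_left (add_le_add le_rfl hT') hc₁0))) (hf0 p)
    linarith
  have hint := integral_mono_ae (if'.const_mul _)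
    ((if'.const_mul _).add ((hSi.fun_add (if'.const_mul T)).const_mul c₁)) hpt
  simp only [Pi.add_apply] at hint
  rw [integral_add (if'.const_mul _) ((hSi.fun_add (if'.const_mul T)).const_mul c₁),
    integral_const_mul, integral_const_mul, integral_const_mul,
    integral_add hSi (if'.const_mul T), integral_const_mul] at hint
  have herr : c₁ * ((∫ p, f p * (∫ q, rad n ρs (Γ.dist p.1 q.1) * H q ∂D.μ) ∂D.μ) +
      T * ∫ p, f p ∂D.μ) ≤ 2 ^ (n - 1) * (P + Q * U) * (1 - l) := by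
    have hP0 : 0 ≤ P := by positivity
    calc c₁ * _ ≤ c₁ * (P * (1 - l) + T * U) :=
          mul_le_mul_of_nonneg_left (add_le_add hErr (mul_le_mul_of_nonneg_left hIU hT0)) hc₁0
      _ ≤ 2 ^ (n - 1) * _ := mul_le_mul_of_nonneg_right hc₁2 (by positivity)
      _ = _ := by rw [hT]; ring
  linarith

end

end Vale.Agent.P219.CH.Full.Concentration
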