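import Vale.Agent.P219.CH.Full.Concentration.Levels

/-!
P219, the concentration step: the cut-off functions around the almost constant value `M` of `v`
and the bound on the square of `h₀ g + |∇g|`.
-/

namespace Vale.Agent.P219.CH.Full.Concentration

open MeasureTheory Filter Topology Set
open scoped ContDiff

noncomputable section

variable {n : ℕ} {G : Coeff n} {Γ : Geo G} {e h₀ a M δ ε : ℝ} {z : E n} {u : E n → ℝ}

/-- The mass at almost constant `v` and comparable weight. -/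
def core (Γ : Geo G) (e M δ ε : ℝ) (u : E n → ℝ) (z : E n) (a : ℝ) (x : E n) : ℝ :=
  bump (M - δ) (M - δ / 2) (M + δ / 2) (M + δ) (vfun Γ e z a u x) *
    up ε (2 * ε) (wgt Γ e z a x / (kk e a / a))

/-- The wide window in `v`. -/
def wideV (Γ : Geo G) (e M δ : ℝ) (u : E n → ℝ) (z : E n) (a : ℝ) (x : E n) : ℝ :=
  bump (M - 2 * δ) (M - δ) (M + δ) (M + 2 * δ) (vfun Γ e z a u x)

/-- The wide window in the weight. -/
def wideW (Γ : Geo G) (e ε : ℝ) (z : E n) (a : ℝ) (x : E n) : ℝ :=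
  up (ε / 4) (ε / 2) (wgt Γ e z a x / (kk e a / a))

/-- The wide window. -/
def wide (Γ : Geo G) (e M δ ε : ℝ) (u : E n → ℝ) (z : E n) (a : ℝ) (x : E n) : ℝ :=
  wideV Γ e M δ u z a x * wideW Γ e ε z a x

theorem core_mem (x : E n) : core Γ e M δ ε u z a x ∈ Icc (0 : ℝ) 1 :=
  ⟨mul_nonneg (bump_mem _ _ _ _ _).1 (up_mem _ _ _).1,
    mul_le_one₀ (bump_mem _ _ _ _ _).2 (up_mem _ _ _).1 (up_mem _ _ _).2⟩

theorem wide_mem (x : E n) : wide Γ e M δ ε u z a x ∈ Icc (0 : ℝ) 1 :=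
  ⟨mul_nonneg (bump_mem _ _ _ _ _).1 (up_mem _ _ _).1,
    mul_le_one₀ (bump_mem _ _ _ _ _).2 (up_mem _ _ _).1 (up_mem _ _ _).2⟩

/-- The wide window is one on the core. -/
theorem wide_of_core (hδ : 0 < δ) (hε : 0 < ε) {x : E n} (hx : 0 < core Γ e M δ ε u z a x) :
    wide Γ e M δ ε u z a x = 1 ∧ M - 2 * δ ≤ vfun Γ e z a u x ∧
      ε / 4 < wgt Γ e z a x / (kk e a / a) := by
  obtain ⟨h1, h2⟩ := bump_pos (show M - δ < M - δ / 2 by linarith)
    (show M + δ / 2 < M + δ by linarith) (pos_of_mul_pos_left hx (up_mem _ _ _).1)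
  have h3 := lt_of_up_pos (show ε < 2 * ε by linarith)
    (pos_of_mul_pos_right hx (bump_mem _ _ _ _ _).1)
  refine ⟨?_, by linarith, by linarith⟩
  rw [wide, wideV, wideW, bump_eq_one (by linarith) (by linarith) h1.le h2.le,
    up_eq_one (by linarith) (by linarith), mul_one]

theorem wideV_eq_zero (hδ : 0 < δ) (hM : 2 * δ < M) {x : E n} (hx : x ∉ tsupport u) :
    wideV Γ e M δ u z a x = 0 := by
  simp [wideV, vfun, image_eq_zero_of_notMem_tsupport hx, bump,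
    up_eq_zero (show M - 2 * δ < M - δ by linarith) (show (0 : ℝ) ≤ M - 2 * δ by linarith)]

theorem core_eq_zero (hδ : 0 < δ) (hM : 2 * δ < M) {x : E n} (hx : x ∉ tsupport u) :
    core Γ e M δ ε u z a x = 0 := by
  simp [core, vfun, image_eq_zero_of_notMem_tsupport hx, bump,
    up_eq_zero (show M - δ < M - δ / 2 by linarith) (show (0 : ℝ) ≤ M - δ by linarith)]

theorem wide_eq_zero (hδ : 0 < δ) (hM : 2 * δ < M) {x : E n} (hx : x ∉ tsupport u) :
    wide Γ e M δ ε u z a x = 0 := by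
  simp [wide, wideV_eq_zero hδ hM hx]

theorem tsupport_wide (hδ : 0 < δ) (hM : 2 * δ < M) :
    tsupport (wide Γ e M δ ε u z a) ⊆ tsupport u :=
  closure_minimal (fun _ hx => by by_contra h; exact hx (wide_eq_zero hδ hM h))
    (isClosed_tsupport u)

theorem contDiff_wideV (hw : ContDiff ℝ 1 (wgt Γ e z a)) (hwp : ∀ y, 0 < wgt Γ e z a y)
    (hu : ContDiff ℝ 1 u) : ContDiff ℝ 1 (wideV Γ e M δ u z a) :=
  (contDiff_bump _ _ _ _).comp (contDiff_vfun hw hwp hu)

theorem contDiff_wideW (hw : ContDiff ℝ 1 (wgt Γ e z a)) :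
    ContDiff ℝ 1 (wideW Γ e ε z a) := (contDiff_up _ _).comp (hw.div_const _)

theorem contDiff_wide (hw : ContDiff ℝ 1 (wgt Γ e z a)) (hwp : ∀ y, 0 < wgt Γ e z a y)
    (hu : ContDiff ℝ 1 u) : ContDiff ℝ 1 (wide Γ e M δ ε u z a) :=
  (contDiff_wideV hw hwp hu).mul (contDiff_wideW hw)

theorem continuous_core (hw : ContDiff ℝ 1 (wgt Γ e z a)) (hwp : ∀ y, 0 < wgt Γ e z a y)
    (hu : ContDiff ℝ 1 u) : Continuous (core Γ e M δ ε u z a) :=
  ((contDiff_bump _ _ _ _).continuous.comp (contDiff_vfun hw hwp hu).continuous).mul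
    ((contDiff_up _ _).continuous.comp (hw.continuous.div_const _))

/-- `u^q` dominates `w^m` where `v ≥ M - 2δ`. -/
theorem dom (hn : 4 ≤ n) (hwp : ∀ y, 0 < wgt Γ e z a y) (h0 : ∀ y, 0 ≤ u y)
    (hM : 2 * δ < M) {x : E n} (hx : M - 2 * δ ≤ vfun Γ e z a u x) :
    wgt Γ e z a x ^ (n - 1) ≤ ((M - 2 * δ) ^ qe n)⁻¹ * u x ^ qe n := by
  have hM2 : 0 < M - 2 * δ := by linarith
  rw [le_inv_mul_iff₀ (Real.rpow_pos_of_pos hM2 _), u_pow hn hwp h0 x]
  exact mul_le_mul_of_nonneg_right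
    (Real.rpow_le_rpow hM2.le hx (by linarith [two_lt_qe hn])) (pow_nonneg (hwp x).le _)

theorem wide_mul_le (hn : 4 ≤ n) (hwp : ∀ y, 0 < wgt Γ e z a y) (h0 : ∀ y, 0 ≤ u y)
    (hδ : 0 < δ) (hM : 2 * δ < M) (x : E n) :
    wide Γ e M δ ε u z a x * wgt Γ e z a x ^ (n - 1) ≤
      ((M - 2 * δ) ^ qe n)⁻¹ * u x ^ qe n := by
  rcases (bump_mem (M - 2 * δ) (M - δ) (M + δ) (M + 2 * δ) (vfun Γ e z a u x)).1.eq_or_lt with h | h
  · simp only [wide, wideV, ← h, zero_mul]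
    exact mul_nonneg (inv_nonneg.2 (Real.rpow_nonneg (by linarith) _)) (Real.rpow_nonneg (h0 x) _)
  · exact (mul_le_of_le_one_left (pow_nonneg (hwp x).le _) (wide_mem x).2).trans
      (dom hn hwp h0 hM (bump_pos (by linarith) (by linarith) h).1.le)

/-- The square of `h₀ g + |∇g|` for the wide window `g`. -/
theorem wide_sq_bound (hn : 4 ≤ n) (hG : IsMetric G) (he : 0 ≤ e) (D : Varifold G h₀) (hδ : 0 < δ)
    (hM : 2 * δ < M) (hε : 0 < ε) :
    ∃ C : ℝ, 0 ≤ C ∧ ∀ u z a, Adm D.μ u → 0 < a → e * a < 1 →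
      ContDiff ℝ 1 (wgt Γ e z a) → (∀ y, 0 < wgt Γ e z a y ∧ wgt Γ e z a y ≤ kk e a / a) →
      (∀ q : E n × E n, G q.1 q.2 q.2 = 1 →
        tgsq G (wgt Γ e z a) q ≤ 4 / a * wgt Γ e z a q.1 ^ 2) →
      gap Γ e D.μ z a u ≤ 1 →
      ∫ p, (h₀ * wide Γ e M δ ε u z a p.1 + Real.sqrt (tgsq G (wide Γ e M δ ε u z a) p)) ^ 2
          ∂D.μ ≤ C * (1 + 1 / a) / ((kk e a / a) ^ (n - 1)) := by
  set U := ((M - 2 * δ) ^ qe n)⁻¹ with hU
  have hU0 : 0 < U := inv_pos.2 (Real.rpow_pos_of_pos (by linarith) _)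
  set ε' := ε / 4 with hε'
  have hε'0 : 0 < ε' := by positivity
  obtain ⟨C₁, hC₁0, hC₁⟩ := exists_deriv_bound
    (contDiff_bump (M - 2 * δ) (M - δ) (M + δ) (M + 2 * δ)) (a := M - 2 * δ) (b := M + 2 * δ)
    fun x => deriv_bump_out (by linarith) (by linarith)
  obtain ⟨C₂, hC₂0, hC₂⟩ := exists_deriv_bound (contDiff_up ε' (ε / 2)) (a := ε') (b := ε / 2)
    fun x => deriv_up_out (by rw [hε']; linarith)
  set A := 2 * h₀ ^ 2 * U with hA
  set B := 8 * C₁ ^ 2 * ε' ^ 2 + 16 * C₂ ^ 2 * U with hB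
  refine ⟨(A + B) / ε' ^ (n - 1), by positivity, fun u z a hu ha hea hw hwb hgradw hgap => ?_⟩
  have hwp : ∀ y, 0 < wgt Γ e z a y := fun y => (hwb y).1
  obtain ⟨hw0, -, hw0u⟩ := w0_bounds he ha hea
  set w0 := kk e a / a with hw0def
  have hv := contDiff_vfun hw hwp hu.c1
  set v := vfun Γ e z a u with hvdef
  have hν0 : ∀ x, 0 ≤ u x ^ qe n := fun x => Real.rpow_nonneg (hu.nonneg x) _
  have iν : Integrable (fun p : E n × E n => U * u p.1 ^ qe n) D.μ := by
    have h := integrable_mul_pow hn hG hu (continuous_const (y := (1 : ℝ)))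
    exact (h.congr (ae_of_all _ fun p => one_mul _)).const_mul U
  have hνint : ∫ p, U * u p.1 ^ qe n ∂D.μ = U := by rw [integral_const_mul, hu.norm, mul_one]
  set g := wide Γ e M δ ε u z a with hg
  set bo := wideV Γ e M δ u z a with hbo
  set zo := wideW Γ e ε z a with hzo
  have hbo_mem : ∀ x, bo x ∈ Icc (0 : ℝ) 1 := fun x => bump_mem _ _ _ _ _
  have hzo_mem : ∀ x, zo x ∈ Icc (0 : ℝ) 1 := fun x => up_mem _ _ _
  have hzo_pos : ∀ x, 0 < zo x → ε' * w0 ≤ wgt Γ e z a x := fun x hx =>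
    ((lt_div_iff₀ hw0).1 (lt_of_up_pos (show ε' < ε / 2 by rw [hε']; linarith) hx)).le
  have hgC := contDiff_wide (M := M) (δ := δ) (ε := ε) hw hwp hu.c1
  set W := (ε' * w0) ^ (n - 1) with hW
  have hW0 : 0 < W := by positivity
  have hvs : HasCompactSupport v := HasCompactSupport.intro hu.supp fun x hx => by
    simp [hvdef, vfun, image_eq_zero_of_notMem_tsupport hx]
  have igap : Integrable (fun p => wgt Γ e z a p.1 ^ (2 * al n) * tgsq G v p) D.μ :=
    D.integrable_of_supp hG (((hw.continuous.comp continuous_fst).rpow_const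
      fun p => Or.inl (hwp p.1).ne').mul (continuous_tgsq hG hv)) hvs
      fun p hp => by simp [tgsq_eq_zero hp]
  have iH : Integrable (fun p => (h₀ * g p.1 + Real.sqrt (tgsq G g p)) ^ 2) D.μ := by
    refine D.integrable_of_supp hG (((continuous_const.mul (hgC.continuous.comp continuous_fst)).add
      (continuous_tgsq hG hgC).sqrt).pow 2) hu.supp fun p hp => ?_
    rw [tgsq_eq_zero fun h => hp (tsupport_wide hδ hM h)]
    simp [hg, wide_eq_zero hδ hM hp]
  have hle : ∫ p, (h₀ * g p.1 + Real.sqrt (tgsq G g p)) ^ 2 ∂D.μ ≤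
      ∫ p, ((2 * h₀ ^ 2 + 16 * C₂ ^ 2 / a) * (W⁻¹ * (U * u p.1 ^ qe n)) +
        4 * C₁ ^ 2 * ((ε' * w0) ^ 2 / W) * (wgt Γ e z a p.1 ^ (2 * al n) * tgsq G v p)) ∂D.μ := by
    refine integral_mono_ae iH (((iν.const_mul _).const_mul _).add (igap.const_mul _)) ?_
    filter_upwards [D.unit] with p hp
    have t1 : g p.1 ^ 2 ≤ W⁻¹ * (U * u p.1 ^ qe n) := by
      rw [le_inv_mul_iff₀ hW0]
      refine le_trans ?_ (wide_mul_le (ε := ε) hn hwp hu.nonneg hδ hM p.1)
      rcases (hzo_mem p.1).1.eq_or_lt with h | h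
      · simp [hg, wide, ← hzo, ← h]
      · rw [mul_comm W, sq]
        exact mul_le_mul (mul_le_of_le_one_left (wide_mem _).1 (wide_mem _).2)
          (pow_le_pow_left₀ (by positivity) (hzo_pos _ h) _) hW0.le (wide_mem _).1
    have t2 : zo p.1 ^ 2 * tgsq G bo p ≤
        C₁ ^ 2 * ((ε' * w0) ^ 2 / W) * (wgt Γ e z a p.1 ^ (2 * al n) * tgsq G v p) := by
      have h0 := tgsq_nonneg hG v hp
      rcases (hzo_mem p.1).1.eq_or_lt with h | h
      · simp only [← h, ne_eq, OfNat.ofNat_ne_zero, not_false_eq_true, zero_pow, zero_mul]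
        have := Real.rpow_nonneg (hwp p.1).le (2 * al n)
        positivity
      have e1 : (ε' * w0) ^ 2 / W * wgt Γ e z a p.1 ^ (2 * al n) =
          (wgt Γ e z a p.1 / (ε' * w0)) ^ (n - 3) := by
        rw [show 2 * al n = ((n - 3 : ℕ) : ℝ) by
            rw [Nat.cast_sub (by omega : 3 ≤ n)]; simp only [al, md]; push_cast; ring,
          Real.rpow_natCast, div_pow, hW]
        have h2 : (ε' * w0) ^ (n - 1) = (ε' * w0) ^ (n - 3) * (ε' * w0) ^ 2 := by
          rw [← pow_add]; congr 1; omega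
        rw [h2]
        field_simp
      have e2 : (1 : ℝ) ≤ (ε' * w0) ^ 2 / W * wgt Γ e z a p.1 ^ (2 * al n) := by
        rw [e1]
        exact one_le_pow₀ ((one_le_div (by positivity)).2 (hzo_pos _ h))
      have e3 : tgsq G bo p ≤ C₁ ^ 2 * tgsq G v p := by
        rw [hbo, show wideV Γ e M δ u z a =
          fun x => bump (M - 2 * δ) (M - δ) (M + δ) (M + 2 * δ) (v x) from rfl,
          tgsq_comp hG ((contDiff_bump _ _ _ _).differentiable one_ne_zero _)
            (hv.differentiable one_ne_zero _)]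
        exact mul_le_mul_of_nonneg_right
          (by rw [← sq_abs]; exact pow_le_pow_left₀ (abs_nonneg _) (hC₁ _).1 2) h0
      calc zo p.1 ^ 2 * tgsq G bo p ≤ 1 * (C₁ ^ 2 * tgsq G v p) :=
            mul_le_mul (pow_le_one₀ (hzo_mem _).1 (hzo_mem _).2) e3 (tgsq_nonneg hG _ hp)
              zero_le_one
        _ ≤ (ε' * w0) ^ 2 / W * wgt Γ e z a p.1 ^ (2 * al n) * (C₁ ^ 2 * tgsq G v p) :=
            mul_le_mul_of_nonneg_right e2 (mul_nonneg (sq_nonneg _) h0)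
        _ = _ := by ring
    have t3 : bo p.1 ^ 2 * tgsq G zo p ≤ 4 * C₂ ^ 2 / a * (W⁻¹ * (U * u p.1 ^ qe n)) := by
      have h0 := tgsq_nonneg hG (wgt Γ e z a) hp
      have hpos : 0 ≤ 4 * C₂ ^ 2 / a * (W⁻¹ * (U * u p.1 ^ qe n)) := by
        have := hν0 p.1; positivity
      have e3 : tgsq G zo p =
          deriv (up ε' (ε / 2)) (wgt Γ e z a p.1 / w0) ^ 2 * (tgsq G (wgt Γ e z a) p / w0 ^ 2) := by
        rw [hzo, show wideW Γ e ε z a = fun x => up ε' (ε / 2) (wgt Γ e z a x / w0) from rfl,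
          tgsq_comp hG ((contDiff_up _ _).differentiable one_ne_zero _)
            ((hw.div_const _).differentiable one_ne_zero _),
          tgsq_comp (φ := fun t : ℝ => t / w0) hG (differentiableAt_id.div_const _)
            (hw.differentiable one_ne_zero _), deriv_div_const]
        simp only [deriv_id'']
        ring
      rcases (hbo_mem p.1).1.eq_or_lt with hb0 | hb0
      · simpa [← hb0] using hpos
      by_cases hlt : wgt Γ e z a p.1 / w0 < ε'
      · rw [e3, deriv_up_out (show ε' < ε / 2 by rw [hε']; linarith) (Or.inl hlt)]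
        simpa using hpos
      have hge : ε' * w0 ≤ wgt Γ e z a p.1 := (le_div_iff₀ hw0).1 (not_lt.1 hlt)
      have e4 : bo p.1 ^ 2 ≤ W⁻¹ * (U * u p.1 ^ qe n) := by
        rw [le_inv_mul_iff₀ hW0]
        refine le_trans ?_ (dom hn hwp hu.nonneg hM
          (bump_pos (by linarith) (by linarith) hb0).1.le)
        exact (mul_le_of_le_one_right hW0.le (pow_le_one₀ (hbo_mem _).1 (hbo_mem _).2)).trans
          (pow_le_pow_left₀ (by positivity) hge _)
      rw [e3]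
      have e5 : tgsq G (wgt Γ e z a) p / w0 ^ 2 ≤ 4 / a := by
        rw [div_le_iff₀ (pow_pos hw0 2)]
        exact (hgradw p hp).trans (mul_le_mul_of_nonneg_left
          (pow_le_pow_left₀ (hwp _).le (hwb _).2 2) (div_nonneg (by norm_num) ha.le))
      calc bo p.1 ^ 2 * (deriv (up ε' (ε / 2)) (wgt Γ e z a p.1 / w0) ^ 2 *
            (tgsq G (wgt Γ e z a) p / w0 ^ 2))
          ≤ (W⁻¹ * (U * u p.1 ^ qe n)) * (C₂ ^ 2 * (4 / a)) := by
            refine mul_le_mul e4 (mul_le_mul ?_ e5 (div_nonneg h0 (sq_nonneg _)) (sq_nonneg _))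
              (mul_nonneg (sq_nonneg _) (div_nonneg h0 (sq_nonneg _)))
              (mul_nonneg (inv_nonneg.2 hW0.le) (mul_nonneg hU0.le (hν0 _)))
            rw [← sq_abs]; exact pow_le_pow_left₀ (abs_nonneg _) (hC₂ _).1 2
        _ = _ := by ring
    have hsq : Real.sqrt (tgsq G g p) ^ 2 ≤
        2 * zo p.1 ^ 2 * tgsq G bo p + 2 * bo p.1 ^ 2 * tgsq G zo p := by
      rw [Real.sq_sqrt (tgsq_nonneg hG g hp)]
      exact tgsq_mul_le hG hp ((contDiff_wideV hw hwp hu.c1).differentiable one_ne_zero _)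
        ((contDiff_wideW hw).differentiable one_ne_zero _)
    have hadd := add_sq_le (a := h₀ * g p.1) (b := Real.sqrt (tgsq G g p))
    have := mul_le_mul_of_nonneg_left t1 (sq_nonneg h₀)
    ring_nf at hadd hsq t1 t2 t3 this ⊢
    linarith
  refine hle.trans ?_
  rw [integral_add ((iν.const_mul _).const_mul _) (igap.const_mul _), integral_const_mul,
    integral_const_mul, hνint, integral_const_mul]
  have hga : ∫ p, wgt Γ e z a p.1 ^ (2 * al n) * tgsq G v p ∂D.μ ≤ 1 := hgap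
  have h2 : (ε' * w0) ^ 2 / W ≤ ε' ^ 2 * (2 / a) / W := by
    gcongr
    rw [mul_pow]
    exact mul_le_mul_of_nonneg_left ((le_div_iff₀ ha).2 (by linarith)) (sq_nonneg _)
  have h3 : 4 * C₁ ^ 2 * ((ε' * w0) ^ 2 / W) *
      ∫ p, wgt Γ e z a p.1 ^ (2 * al n) * tgsq G v p ∂D.μ ≤
        4 * C₁ ^ 2 * (ε' ^ 2 * (2 / a) / W) * 1 :=
    mul_le_mul (mul_le_mul_of_nonneg_left h2 (by positivity)) hga
      (integral_nonneg_of_ae (by
        filter_upwards [D.unit] with p hp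
        exact mul_nonneg (Real.rpow_nonneg (hwp _).le _) (tgsq_nonneg hG _ hp))) (by positivity)
  have h4 : 0 ≤ W⁻¹ * (A * (1 / a) + B) := by positivity
  have h5 : (A + B) / ε' ^ (n - 1) * (1 + 1 / a) / w0 ^ (n - 1) = W⁻¹ * ((A + B) * (1 + 1 / a)) := by
    rw [hW, mul_pow]; field_simp
  rw [h5]
  have h6 : (2 * h₀ ^ 2 + 16 * C₂ ^ 2 / a) * (W⁻¹ * U) + 4 * C₁ ^ 2 * (ε' ^ 2 * (2 / a) / W) * 1 +
      W⁻¹ * (A * (1 / a) + B) = W⁻¹ * ((A + B) * (1 + 1 / a)) := by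
    rw [hA, hB]; ring
  linarith

end

end Vale.Agent.P219.CH.Full.Concentration
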